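import Vale.Agent.P253Z.T2.An
import Vale.Agent.P284Z.F0.Levi

/-!
# P253Z, T2: smooth functions with plurisubharmonic logarithm
-/

open scoped Manifold ContDiff Bundle ENNReal Topology ComplexConjugate ComplexOrder
open Bundle IsManifold MeasureTheory Set Metric Filter Vale.Agent.P253.Mfd
open Vale.Agent.P272.K (Cm dz dzb cHess jacM Chart)
open Vale.Agent.P284Z (LPsh)

noncomputable section

namespace Vale.Agent.P253Z.T2

variable {n : ℕ}

/-- `F ≥ 0` is smooth on `U` and `log F` is plurisubharmonic -/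
def Good (F : Cm n → ℝ) (U : Set (Cm n)) : Prop := LPsh F U ∧ ∀ z ∈ U, ContDiffAt ℝ ∞ F z

section good
variable {F G φ : Cm n → ℝ} {U U' : Set (Cm n)} {z : Cm n}

theorem good_two_le : (2 : WithTop ℕ∞) ≤ ((⊤ : ℕ∞) : WithTop ℕ∞) := by norm_cast

theorem Good.nonneg (h : Good F U) (hz : z ∈ U) : 0 ≤ F z := h.1.1 z hz

theorem Good.mono (h : Good F U) (hU : U' ⊆ U) : Good F U' :=
  ⟨h.1.mono hU, fun z hz => h.2 z (hU hz)⟩

theorem Good.congr (h : Good F U) (hU : IsOpen U) (e : ∀ z ∈ U, G z = F z) : Good G U :=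
  ⟨h.1.congr e, fun z hz => (h.2 z hz).congr_of_eventuallyEq
    (Eventually.mono (hU.mem_nhds hz) e)⟩

theorem Good.add (h : Good F U) (h' : Good G U) : Good (fun z => F z + G z) U :=
  ⟨h.1.add h'.1, fun z hz => (h.2 z hz).add (h'.2 z hz)⟩

theorem Good.mul (h : Good F U) (h' : Good G U) : Good (fun z => F z * G z) U :=
  ⟨h.1.mul h'.1, fun z hz => (h.2 z hz).mul (h'.2 z hz)⟩

theorem Good.pow (h : Good F U) (k : ℕ) : Good (fun z => F z ^ k) U :=
  ⟨h.1.pow k, fun z hz => (h.2 z hz).pow k⟩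

theorem good_const {c : ℝ} (hc : 0 ≤ c) (U : Set (Cm n)) : Good (fun _ => c) U :=
  ⟨P284Z.lpsh_const hc U, fun _ _ => contDiffAt_const⟩

theorem good_sum {ι : Type} (s : Finset ι) {f : ι → Cm n → ℝ} (h : ∀ i ∈ s, Good (f i) U) :
    Good (fun z => ∑ i ∈ s, f i z) U :=
  ⟨P284Z.lpsh_sum s fun i hi => (h i hi).1, fun z hz => ContDiffAt.sum fun i hi => (h i hi).2 z hz⟩

theorem good_exp (h : ∀ z ∈ U, ContDiffAt ℝ ∞ φ z ∧ (cHess φ z).PosSemidef) :
    Good (fun z => Real.exp (φ z)) U :=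
  ⟨(P284Z.psh_of_cHess fun z hz => ⟨(h z hz).1.of_le good_two_le, (h z hz).2⟩).lpsh_exp
    (.of_cont fun z hz => (h z hz).1.continuousAt.continuousWithinAt), fun z hz => (h z hz).1.exp⟩

theorem good_of_log (hU : IsOpen U) (h : ∀ z ∈ U, 0 < F z ∧ ContDiffAt ℝ ∞ F z ∧
    (cHess (fun y => Real.log (F y)) z).PosSemidef) : Good F U :=
  (good_exp fun z hz => ⟨(h z hz).2.1.log (h z hz).1.ne', (h z hz).2.2⟩).congr hU
    fun z hz => (Real.exp_log (h z hz).1).symm

theorem good_sq {f : Cm n → ℂ} (hU : IsOpen U) (h : ∀ z ∈ U, AnalyticAt ℂ f z) :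
    Good (fun z => ‖f z‖ ^ 2) U :=
  ⟨(P284Z.lpsh_norm hU fun z hz => (h z hz).differentiableAt.differentiableWithinAt).pow 2,
    fun z hz => (((h z hz).contDiffAt (n := ∞)).restrict_scalars ℝ).norm_sq ℂ⟩

theorem Good.psd (h : Good F U) (hU : IsOpen U) (hz : z ∈ U) (hp : 0 < F z) :
    (cHess (fun y => Real.log (F y)) z).PosSemidef :=
  h.1.cHess_psd (hU.mem_nhds hz) hp ((h.2 z hz).of_le good_two_le)

theorem good_hess_congr (h : F =ᶠ[𝓝 z] G) : cHess F z = cHess G z := by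
  ext j k
  have e : (dzb k fun y => (F y : ℂ)) =ᶠ[𝓝 z] dzb k fun y => (G y : ℂ) :=
    (h.fun_comp ((↑) : ℝ → ℂ)).fderiv (𝕜 := ℝ) |>.mono fun y hy => by
      simp only [dzb]
      exact congrArg (fun L : Cm n →L[ℝ] ℂ =>
        (L (Pi.single k 1) + Complex.I * L (Pi.single k Complex.I)) / 2) hy
  simp only [cHess, Matrix.of_apply, dz, e.fderiv_eq]

end good

variable {M : Type} [MetricSpace M] [ChartedSpace (Cm n) M]
  [RiemannianBundle (fun x : M => TangentSpace 𝓘(ℝ, Cm n) x)]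

/-- negative powers of the volume density -/
theorem good_vd (b : B1b n M) (r : B2 n M) {e : Chart n M} (he : Hc e) (N : ℕ) :
    Good (fun z => (vd e z ^ N)⁻¹) e.target :=
  ((good_exp fun z hz => ⟨((b.vd_sm e he z hz).log (b.vd_pos e he z hz).ne').neg,
    (r e he z hz).posSemidef⟩).pow N).congr e.open_target fun z hz => by
      rw [Real.exp_neg, Real.exp_log (b.vd_pos e he z hz), inv_pow]

/-- the curvature of the weight `log (1 + w)` on `K^(-N)` -/
theorem th_psd (b : B1b n M) (r : B2 n M) {e : Chart n M} (he : Hc e) {k : ℤ} {N : ℕ}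
    (hk : k = 1 - N) {w : M → ℝ} {F : Cm n → ℝ} {U : Set (Cm n)} (hU : IsOpen U)
    (hUe : U ⊆ e.target) (hF : Good F U) (hw : ∀ z ∈ U, w (e.symm z) = F z * vd e z ^ N)
    {z : Cm n} (hz : z ∈ U) : (th k (fun x => Real.log (1 + w x)) e z).PosSemidef := by
  have p : ∀ y ∈ U, 0 < vd e y ^ N := fun y hy => pow_pos (b.vd_pos e he y (hUe hy)) N
  have q : ∀ y ∈ U, 0 < (vd e y ^ N)⁻¹ + F y := fun y hy =>
    add_pos_of_pos_of_nonneg (inv_pos.2 (p y hy)) (hF.nonneg hy)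
  rw [th, good_hess_congr (G := fun y => Real.log ((vd e y ^ N)⁻¹ + F y))]
  · exact (((good_vd b r he N).mono hUe).add hF).psd hU hz (q z hz)
  · filter_upwards [hU.mem_nhds hz] with y hy
    rw [wt, hw y hy, show 1 + F y * vd e y ^ N = vd e y ^ N * ((vd e y ^ N)⁻¹ + F y) by
      rw [mul_add, mul_inv_cancel₀ (p y hy).ne', mul_comm],
      Real.log_mul (p y hy).ne' (q y hy).ne', Real.log_pow, hk]
    push_cast
    ring

end Vale.Agent.P253Z.T2
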